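import Mathlib

/-!
# Jacobsthal's function

Definition of Jacobsthal's function `j(n)` and an elementary counting bound.
-/

namespace Vale.Agent.Lib.Helper4

open Finset

/-- Jacobsthal's function `j(n)`: the least positive integer `m` such that every set of `m`
consecutive integers `a, a+1, ..., a+m-1` (arbitrary integer starting point `a`) contains an
integer coprime to `n`. -/
noncomputable def jacobsthal (n : ℕ) : ℕ :=
  sInf {m : ℕ | 0 < m ∧ ∀ a : ℤ, ∃ i : ℕ, i < m ∧ IsCoprime (a + (i : ℤ)) (n : ℤ)}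

/-- In a window of `m` consecutive integers there are at most `m / p + 1` multiples of `p`. -/
theorem card_window_multiples_le (p : ℕ) (a : ℤ) (m : ℕ) :
    ((range m).filter (fun i : ℕ => (p : ℤ) ∣ a + (i : ℤ))).card ≤ m / p + 1 := by
  have h := Finset.card_le_card_of_injOn (s := (range m).filter (fun i : ℕ => (p : ℤ) ∣ a + (i : ℤ)))
    (t := range (m / p + 1)) (fun i => i / p) ?_ ?_
  · simpa using h
  · intro i hi
    simp only [coe_filter, mem_range, Set.mem_ofPred_eq] at hi
    simp only [coe_range, Set.mem_Iio]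
    exact Nat.lt_succ_of_le (Nat.div_le_div_right hi.1.le)
  · intro i hi i' hi' hii
    simp only [coe_filter, mem_range, Set.mem_ofPred_eq] at hi hi'
    simp only at hii
    have hd : (p : ℤ) ∣ (i' : ℤ) - (i : ℤ) := by
      have := dvd_sub hi'.2 hi.2
      simpa using this
    have h1 : i % p = i' % p := by
      have : (i : ℤ) ≡ (i' : ℤ) [ZMOD (p : ℤ)] := Int.modEq_iff_dvd.mpr hd
      exact_mod_cast (Int.natCast_modEq_iff.mp this)
    calc i = p * (i / p) + i % p := (Nat.div_add_mod i p).symm
      _ = p * (i' / p) + i' % p := by rw [hii, h1]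
      _ = i' := Nat.div_add_mod i' p

/-- If no element of the window `a, ..., a+m-1` is coprime to `n` (with `n ≠ 0`), then
`m ≤ ∑_{p ∣ n} (m / p + 1)`. -/
theorem window_le_sum_of_forall_not_coprime (n : ℕ) (hn : n ≠ 0) (a : ℤ) (m : ℕ)
    (h : ∀ i : ℕ, i < m → ¬ IsCoprime (a + (i : ℤ)) (n : ℤ)) :
    m ≤ ∑ p ∈ n.primeFactors, (m / p + 1) := by
  have hsub : range m ⊆ n.primeFactors.biUnion
      (fun p => (range m).filter (fun i : ℕ => (p : ℤ) ∣ a + (i : ℤ))) := by
    intro i hi
    have hi' : i < m := mem_range.mp hi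
    have hnc := h i hi'
    rw [Int.isCoprime_iff_gcd_eq_one] at hnc
    obtain ⟨p, hp, hpd⟩ := Nat.exists_prime_and_dvd hnc
    have hp1 : p ∣ (a + (i : ℤ)).natAbs := hpd.trans (Int.gcd_dvd_natAbs_left _ _)
    have hp2 : p ∣ n := by
      have := hpd.trans (Int.gcd_dvd_natAbs_right (a + (i : ℤ)) (n : ℤ))
      simpa using this
    rw [mem_biUnion]
    refine ⟨p, Nat.mem_primeFactors.mpr ⟨hp, hp2, hn⟩, ?_⟩
    rw [mem_filter]
    exact ⟨hi, Int.natCast_dvd.mpr hp1⟩
  calc m = (range m).card := (card_range m).symm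
    _ ≤ (n.primeFactors.biUnion
          (fun p => (range m).filter (fun i : ℕ => (p : ℤ) ∣ a + (i : ℤ)))).card :=
        card_le_card hsub
    _ ≤ ∑ p ∈ n.primeFactors, ((range m).filter (fun i : ℕ => (p : ℤ) ∣ a + (i : ℤ))).card :=
        card_biUnion_le
    _ ≤ ∑ p ∈ n.primeFactors, (m / p + 1) := by
        apply sum_le_sum
        intro p _
        exact card_window_multiples_le p a m

end Vale.Agent.Lib.Helper4
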