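import Mathlib

namespace Vale.Agent.Lib.Helper4

open scoped ContDiff
open Real

theorem fderiv_apply_one_zero {H : Type*} [NormedAddCommGroup H] [NormedSpace ℝ H]
    (f : ℝ × ℝ → H) (x y : ℝ) (w : H)
    (hf : DifferentiableAt ℝ f (x, y)) (hd : HasDerivAt (fun t => f (t, y)) w x) :
    fderiv ℝ f (x, y) (1, 0) = w := by
  have h1 : HasDerivAt (fun t : ℝ => (t, y)) ((1 : ℝ), (0 : ℝ)) x :=
    (hasDerivAt_id x).prodMk (hasDerivAt_const x y)
  have h2 := hf.hasFDerivAt.comp_hasDerivAt x h1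
  exact h2.unique hd

theorem fderiv_apply_zero_one {H : Type*} [NormedAddCommGroup H] [NormedSpace ℝ H]
    (f : ℝ × ℝ → H) (x y : ℝ) (w : H)
    (hf : DifferentiableAt ℝ f (x, y)) (hd : HasDerivAt (fun t => f (x, t)) w y) :
    fderiv ℝ f (x, y) (0, 1) = w := by
  have h1 : HasDerivAt (fun t : ℝ => (x, t)) ((0 : ℝ), (1 : ℝ)) y :=
    (hasDerivAt_const y x).prodMk (hasDerivAt_id y)
  have h2 := hf.hasFDerivAt.comp_hasDerivAt y h1
  exact h2.unique hd

theorem fderiv_euclidean_apply {n : ℕ} (Φ : ℝ × ℝ → EuclideanSpace ℝ (Fin n)) (q v : ℝ × ℝ)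
    (hΦ : DifferentiableAt ℝ Φ q) (i : Fin n) :
    (fderiv ℝ Φ q v) i = fderiv ℝ (fun q => Φ q i) q v := by
  have h := (EuclideanSpace.proj (𝕜 := ℝ) i).hasFDerivAt.comp q hΦ.hasFDerivAt
  have h2 : fderiv ℝ (fun q => Φ q i) q = (EuclideanSpace.proj (𝕜 := ℝ) i).comp (fderiv ℝ Φ q) :=
    h.fderiv
  rw [h2]
  rfl

theorem contDiff_primitive (ψ : ℝ → ℝ) (hψ : ContDiff ℝ ∞ ψ) (a : ℝ) :
    ContDiff ℝ ∞ (fun x => ∫ t in a..x, ψ t) := by
  rw [contDiff_infty_iff_deriv]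
  refine ⟨intervalIntegral.differentiable_integral_of_continuous hψ.continuous, ?_⟩
  have : deriv (fun x => ∫ t in a..x, ψ t) = ψ := by
    funext x
    exact hψ.continuous.deriv_integral ψ a x
  rw [this]; exact hψ

theorem contDiffOn_primitive_sqrt (ρ : ℝ → ℝ) (hρ : ContDiff ℝ ∞ ρ) (a : ℝ) :
    ContDiffOn ℝ ∞ (fun x => ∫ t in a..x, Real.sqrt (ρ t)) {x | 0 < ρ x} := by
  have hcont : Continuous (fun t => Real.sqrt (ρ t)) := Real.continuous_sqrt.comp hρ.continuous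
  have hopen : IsOpen {x | 0 < ρ x} := isOpen_lt continuous_const hρ.continuous
  rw [contDiffOn_infty_iff_deriv_of_isOpen hopen]
  refine ⟨(intervalIntegral.differentiable_integral_of_continuous hcont).differentiableOn, ?_⟩
  have : deriv (fun x => ∫ t in a..x, Real.sqrt (ρ t)) = fun x => Real.sqrt (ρ x) := by
    funext x; exact hcont.deriv_integral _ a x
  rw [this]
  exact hρ.contDiffOn.sqrt (fun x hx => ne_of_gt hx)

end Vale.Agent.Lib.Helper4
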