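import Mathlib

namespace Vale.Agent.Lib.Helper4

open Filter Topology


/-- `V(x)`: the number of distinct values `v ≤ x` of Euler's totient function on positive
integers. -/
noncomputable def totientValueCount (x : ℝ) : ℕ :=
  Set.ncard {v : ℕ | (∃ n : ℕ, 0 < n ∧ Nat.totient n = v) ∧ (v : ℝ) ≤ x}

theorem totientValueSet_subset (x : ℝ) :
    {v : ℕ | (∃ n : ℕ, 0 < n ∧ Nat.totient n = v) ∧ (v : ℝ) ≤ x} ⊆
      ((Finset.Icc 1 ⌊x⌋₊ : Finset ℕ) : Set ℕ) := by
  rintro v ⟨⟨n, hn, rfl⟩, hv⟩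
  have h1 : 0 < Nat.totient n := Nat.totient_pos.mpr hn
  have h2 : Nat.totient n ≤ ⌊x⌋₊ := Nat.le_floor hv
  simp only [Finset.coe_Icc, Set.mem_Icc]
  exact ⟨h1, h2⟩

theorem totientValueSet_finite (x : ℝ) :
    {v : ℕ | (∃ n : ℕ, 0 < n ∧ Nat.totient n = v) ∧ (v : ℝ) ≤ x}.Finite :=
  (Finset.finite_toSet _).subset (totientValueSet_subset x)

theorem totientValueCount_le (x : ℝ) (hx : 0 ≤ x) : (totientValueCount x : ℝ) ≤ x := by
  have h1 : totientValueCount x ≤ ((Finset.Icc 1 ⌊x⌋₊ : Finset ℕ) : Set ℕ).ncard :=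
    Set.ncard_le_ncard (totientValueSet_subset x) (Finset.finite_toSet _)
  rw [Set.ncard_coe_finset, Nat.card_Icc] at h1
  have h2 : ((⌊x⌋₊ + 1 - 1 : ℕ) : ℝ) ≤ x := by
    simp only [Nat.add_sub_cancel]
    exact Nat.floor_le hx
  calc (totientValueCount x : ℝ) ≤ ((⌊x⌋₊ + 1 - 1 : ℕ) : ℝ) := by exact_mod_cast h1
    _ ≤ x := h2

theorem totientValueCount_mono {x y : ℝ} (h : x ≤ y) :
    totientValueCount x ≤ totientValueCount y := by
  apply Set.ncard_le_ncard _ (totientValueSet_finite y)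
  rintro v ⟨hv1, hv2⟩
  exact ⟨hv1, hv2.trans h⟩

theorem one_le_totientValueCount {x : ℝ} (hx : 1 ≤ x) : 1 ≤ totientValueCount x := by
  have : 0 < totientValueCount x := by
    rw [totientValueCount, Set.ncard_pos (totientValueSet_finite x)]
    exact ⟨1, ⟨1, Nat.one_pos, by simp⟩, by simpa using hx⟩
  exact this

theorem primeCounting_le_totientValueCount (x : ℝ) (hx : 0 ≤ x) :
    Nat.primeCounting (⌊x⌋₊ + 1) ≤ totientValueCount x := by
  rw [← Nat.primesLE_card_eq_primeCounting]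
  have himg : (fun p : ℕ => p - 1) '' ((Nat.primesLE (⌊x⌋₊ + 1) : Finset ℕ) : Set ℕ) ⊆
      {v : ℕ | (∃ n : ℕ, 0 < n ∧ Nat.totient n = v) ∧ (v : ℝ) ≤ x} := by
    rintro v ⟨p, hp, rfl⟩
    have hp' := Nat.mem_primesLE.mp (Finset.mem_coe.mp hp)
    refine ⟨⟨p, hp'.2.pos, Nat.totient_prime hp'.2⟩, ?_⟩
    have h1 : p - 1 ≤ ⌊x⌋₊ := by omega
    calc ((p - 1 : ℕ) : ℝ) ≤ (⌊x⌋₊ : ℝ) := by exact_mod_cast h1
      _ ≤ x := Nat.floor_le hx
  have hinj : Set.InjOn (fun p : ℕ => p - 1) ((Nat.primesLE (⌊x⌋₊ + 1) : Finset ℕ) : Set ℕ) := by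
    intro p hp q hq hpq
    have hp' := (Nat.mem_primesLE.mp (Finset.mem_coe.mp hp)).2.pos
    have hq' := (Nat.mem_primesLE.mp (Finset.mem_coe.mp hq)).2.pos
    simp only at hpq
    omega
  calc (Nat.primesLE (⌊x⌋₊ + 1)).card
      = ((Nat.primesLE (⌊x⌋₊ + 1) : Finset ℕ) : Set ℕ).ncard := (Set.ncard_coe_finset _).symm
    _ = ((fun p : ℕ => p - 1) '' ((Nat.primesLE (⌊x⌋₊ + 1) : Finset ℕ) : Set ℕ)).ncard :=
        (Set.InjOn.ncard_image hinj).symm
    _ ≤ totientValueCount x := Set.ncard_le_ncard himg (totientValueSet_finite x)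



theorem totientValueCount_lower (y : ℝ) (hy : 1 ≤ y) :
    y * Real.log 2 ≤ (totientValueCount y : ℝ) * Real.log (y + 1) + Real.log (y + 2) := by
  have hy0 : 0 ≤ y := by linarith
  set n : ℕ := ⌊y⌋₊ + 1 with hn
  have hfl : 1 ≤ ⌊y⌋₊ := Nat.le_floor (by simpa using hy)
  have hn2 : 2 ≤ n := by omega
  have hny : y < (n : ℝ) := by
    have := Nat.lt_floor_add_one y
    simpa [hn] using this
  have hny' : (n : ℝ) ≤ y + 1 := by
    have := Nat.floor_le hy0
    simp only [hn, Nat.cast_add, Nat.cast_one]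
    linarith
  have hlogn : 0 < Real.log (n : ℝ) := Real.log_pos (by exact_mod_cast hn2)
  have hpi := Chebyshev.pi_ge n
  rw [div_le_iff₀ hlogn] at hpi
  have hV : (Nat.primeCounting n : ℝ) ≤ (totientValueCount y : ℝ) := by
    exact_mod_cast primeCounting_le_totientValueCount y hy0
  have h1 : (Nat.primeCounting n : ℝ) * Real.log (n : ℝ)
      ≤ (totientValueCount y : ℝ) * Real.log (y + 1) := by
    apply mul_le_mul hV (Real.log_le_log (by positivity) hny') hlogn.le (Nat.cast_nonneg _)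
  have h2 : Real.log ((n : ℝ) + 1) ≤ Real.log (y + 2) :=
    Real.log_le_log (by positivity) (by linarith)
  have h3 : y * Real.log 2 ≤ (n : ℝ) * Real.log 2 :=
    mul_le_mul_of_nonneg_right hny.le (Real.log_nonneg (by norm_num))
  linarith

/-- For every `c' > c > 1` there are arbitrarily large `x` with `V(cx) < c' V(x)`. -/
theorem frequently_totientValueCount_lt (c c' : ℝ) (hc : 1 < c) (hc' : c < c') :
    ∃ᶠ x : ℝ in atTop, (totientValueCount (c * x) : ℝ) < c' * totientValueCount x := by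
  by_contra hcon
  rw [not_frequently] at hcon
  obtain ⟨X, hX⟩ := eventually_atTop.mp hcon
  set X0 : ℝ := max X 1 with hX0
  have hX01 : 1 ≤ X0 := le_max_right _ _
  have hc0 : 0 < c := by linarith
  have hc'0 : 0 < c' := by linarith
  have hck : ∀ k : ℕ, 1 ≤ c ^ k := fun k => one_le_pow₀ hc.le
  have key : ∀ k : ℕ, c' ^ k ≤ (totientValueCount (c ^ k * X0) : ℝ) := by
    intro k
    induction k with
    | zero =>
      simp only [pow_zero, one_mul]
      exact_mod_cast one_le_totientValueCount hX01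
    | succ k ih =>
      have hge : X ≤ c ^ k * X0 := by
        have : X ≤ X0 := le_max_left _ _
        nlinarith [hck k]
      have h1 := hX (c ^ k * X0) hge
      push Not at h1
      have h2 : c ^ (k + 1) * X0 = c * (c ^ k * X0) := by ring
      rw [h2]
      calc c' ^ (k + 1) = c' * c' ^ k := by ring
        _ ≤ c' * (totientValueCount (c ^ k * X0) : ℝ) := by
            apply mul_le_mul_of_nonneg_left ih hc'0.le
        _ ≤ (totientValueCount (c * (c ^ k * X0)) : ℝ) := h1
  have hr : 1 < c' / c := (one_lt_div hc0).mpr hc'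
  have hbound : ∀ k : ℕ, (c' / c) ^ k ≤ X0 := by
    intro k
    have h1 := key k
    have h2 : (totientValueCount (c ^ k * X0) : ℝ) ≤ c ^ k * X0 :=
      totientValueCount_le _ (by positivity)
    rw [div_pow, div_le_iff₀ (by positivity)]
    linarith
  have htend := tendsto_pow_atTop_atTop_of_one_lt hr
  obtain ⟨k, hk⟩ := (htend.eventually (eventually_gt_atTop X0)).exists
  exact absurd (hbound k) (not_le.mpr hk)



/-- For every `c' < c` with `c > 1` there are arbitrarily large `x` with `c' V(x) < V(cx)`. -/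
theorem frequently_totientValueCount_gt (c c' : ℝ) (hc : 1 < c) (hc' : c' < c) :
    ∃ᶠ x : ℝ in atTop, c' * totientValueCount x < (totientValueCount (c * x) : ℝ) := by
  by_contra hcon
  rw [not_frequently] at hcon
  obtain ⟨X, hX⟩ := eventually_atTop.mp hcon
  set X0 : ℝ := max X 1 with hX0
  have hX01 : 1 ≤ X0 := le_max_right _ _
  have hX00 : 0 < X0 := by linarith
  have hc0 : 0 < c := by linarith
  set d : ℝ := max c' 1 with hd
  have hd1 : 1 ≤ d := le_max_right _ _
  have hd0 : 0 < d := by linarith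
  have hdc : d < c := max_lt hc' hc
  have hck : ∀ k : ℕ, 1 ≤ c ^ k := fun k => one_le_pow₀ hc.le
  have hdk : ∀ k : ℕ, 1 ≤ d ^ k := fun k => one_le_pow₀ hd1
  have key : ∀ k : ℕ, (totientValueCount (c ^ k * X0) : ℝ) ≤ d ^ k * X0 := by
    intro k
    induction k with
    | zero =>
      simp only [pow_zero, one_mul]
      exact totientValueCount_le X0 hX00.le
    | succ k ih =>
      have hge : X ≤ c ^ k * X0 := by
        have : X ≤ X0 := le_max_left _ _
        nlinarith [hck k]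
      have h1 := hX (c ^ k * X0) hge
      push Not at h1
      have h2 : c ^ (k + 1) * X0 = c * (c ^ k * X0) := by ring
      rw [h2]
      have hVnn : (0 : ℝ) ≤ (totientValueCount (c ^ k * X0) : ℝ) := Nat.cast_nonneg _
      calc (totientValueCount (c * (c ^ k * X0)) : ℝ)
          ≤ c' * (totientValueCount (c ^ k * X0) : ℝ) := h1
        _ ≤ d * (totientValueCount (c ^ k * X0) : ℝ) :=
            mul_le_mul_of_nonneg_right (le_max_left _ _) hVnn
        _ ≤ d * (d ^ k * X0) := mul_le_mul_of_nonneg_left ih hd0.le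
        _ = d ^ (k + 1) * X0 := by ring
  have hr : 1 < c / d := (one_lt_div hd0).mpr hdc
  have hlogc : 0 < Real.log c := Real.log_pos hc
  have hlog2 : 0 < Real.log 2 := Real.log_pos (by norm_num)
  have hbound : ∀ k : ℕ, (c / d) ^ k * (X0 * Real.log 2) ≤
      (X0 + 1) * Real.log c * (k : ℝ) + (X0 + 1) * Real.log (X0 + 2) := by
    intro k
    have hy1 : 1 ≤ c ^ k * X0 := by nlinarith [hck k]
    have h1 := totientValueCount_lower (c ^ k * X0) hy1
    have h2 := key k
    have hlogle : Real.log (c ^ k * X0 + 1) ≤ Real.log (c ^ k * X0 + 2) :=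
      Real.log_le_log (by positivity) (by linarith)
    have hlog2' : Real.log (c ^ k * X0 + 2) ≤ (k : ℝ) * Real.log c + Real.log (X0 + 2) := by
      have h3 : c ^ k * X0 + 2 ≤ c ^ k * (X0 + 2) := by nlinarith [hck k]
      calc Real.log (c ^ k * X0 + 2) ≤ Real.log (c ^ k * (X0 + 2)) :=
            Real.log_le_log (by positivity) h3
        _ = (k : ℝ) * Real.log c + Real.log (X0 + 2) := by
            rw [Real.log_mul (by positivity) (by positivity), Real.log_pow]
    have hlognn : 0 ≤ Real.log (c ^ k * X0 + 2) := Real.log_nonneg (by linarith)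
    have hVnn : (0 : ℝ) ≤ (totientValueCount (c ^ k * X0) : ℝ) := Nat.cast_nonneg _
    have h4 : c ^ k * X0 * Real.log 2 ≤ (d ^ k * X0 + 1) * Real.log (c ^ k * X0 + 2) := by
      calc c ^ k * X0 * Real.log 2
          ≤ (totientValueCount (c ^ k * X0) : ℝ) * Real.log (c ^ k * X0 + 1)
            + Real.log (c ^ k * X0 + 2) := h1
        _ ≤ (totientValueCount (c ^ k * X0) : ℝ) * Real.log (c ^ k * X0 + 2)
            + Real.log (c ^ k * X0 + 2) := by
            have := mul_le_mul_of_nonneg_left hlogle hVnn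
            linarith
        _ ≤ (d ^ k * X0) * Real.log (c ^ k * X0 + 2) + Real.log (c ^ k * X0 + 2) := by
            have := mul_le_mul_of_nonneg_right h2 hlognn
            linarith
        _ = (d ^ k * X0 + 1) * Real.log (c ^ k * X0 + 2) := by ring
    have h5 : (d ^ k * X0 + 1) * Real.log (c ^ k * X0 + 2)
        ≤ d ^ k * ((X0 + 1) * ((k : ℝ) * Real.log c + Real.log (X0 + 2))) := by
      have h6 : d ^ k * X0 + 1 ≤ d ^ k * (X0 + 1) := by nlinarith [hdk k]
      have h7 : 0 ≤ (k : ℝ) * Real.log c + Real.log (X0 + 2) := le_trans hlognn hlog2'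
      calc (d ^ k * X0 + 1) * Real.log (c ^ k * X0 + 2)
          ≤ (d ^ k * (X0 + 1)) * Real.log (c ^ k * X0 + 2) :=
            mul_le_mul_of_nonneg_right h6 hlognn
        _ ≤ (d ^ k * (X0 + 1)) * ((k : ℝ) * Real.log c + Real.log (X0 + 2)) :=
            mul_le_mul_of_nonneg_left hlog2' (by positivity)
        _ = d ^ k * ((X0 + 1) * ((k : ℝ) * Real.log c + Real.log (X0 + 2))) := by ring
    have h8 : c ^ k * X0 * Real.log 2
        ≤ d ^ k * ((X0 + 1) * ((k : ℝ) * Real.log c + Real.log (X0 + 2))) := h4.trans h5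
    have hdkpos : 0 < d ^ k := by positivity
    rw [div_pow, div_mul_eq_mul_div, div_le_iff₀ hdkpos]
    calc c ^ k * (X0 * Real.log 2) = c ^ k * X0 * Real.log 2 := by ring
      _ ≤ d ^ k * ((X0 + 1) * ((k : ℝ) * Real.log c + Real.log (X0 + 2))) := h8
      _ = ((X0 + 1) * Real.log c * (k : ℝ) + (X0 + 1) * Real.log (X0 + 2)) * d ^ k := by ring
  have ht1 := tendsto_pow_const_div_const_pow_of_one_lt 1 hr
  have ht0 := tendsto_pow_const_div_const_pow_of_one_lt 0 hr
  have ht : Tendsto (fun k : ℕ => (X0 + 1) * Real.log c * ((k : ℝ) ^ 1 / (c / d) ^ k)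
      + (X0 + 1) * Real.log (X0 + 2) * ((k : ℝ) ^ 0 / (c / d) ^ k)) atTop (𝓝 0) := by
    have := (ht1.const_mul ((X0 + 1) * Real.log c)).add
      (ht0.const_mul ((X0 + 1) * Real.log (X0 + 2)))
    simpa using this
  have hpos : 0 < X0 * Real.log 2 := by positivity
  obtain ⟨k, hk⟩ := (ht.eventually (gt_mem_nhds hpos)).exists
  have hrk : 0 < (c / d) ^ k := by positivity
  have hb := hbound k
  have : (X0 + 1) * Real.log c * ((k : ℝ) ^ 1 / (c / d) ^ k)
      + (X0 + 1) * Real.log (X0 + 2) * ((k : ℝ) ^ 0 / (c / d) ^ k)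
      = ((X0 + 1) * Real.log c * (k : ℝ) + (X0 + 1) * Real.log (X0 + 2)) / (c / d) ^ k := by
    field_simp
  rw [this, div_lt_iff₀ hrk] at hk
  linarith

end Vale.Agent.Lib.Helper4
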